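import Mathlib

/-!
# Restriction of group algebra elements to a subgroup (P194 and P201, helper7)

`restr S x` keeps the coefficients of `x` at the group elements of `S`.  If `S` is invariant under
left translation by a subgroup `H` and `a` is supported in `H`, then
`restr S (a * x) = a * restr S x` (`restr_mul`).

Consequences for an element `a` of a group algebra whose support lies in a left coset of a
commutative subgroup: `a * b = 1` implies `b * a = 1` (`mul_eq_one_comm_of_commute_support`), and
the reduction of `a * b = 0` to elements supported in that subgroup (`exists_supported_zero_divisor`).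
-/

namespace Vale.Agent.Lib.P194.H7

variable {K G : Type*} [CommRing K] [Group G]

open Classical in
/-- The restriction of `x` to the set `S` of group elements. -/
noncomputable def restr (S : Set G) (x : MonoidAlgebra K G) : MonoidAlgebra K G :=
  MonoidAlgebra.ofCoeff (x.coeff.filter (fun g => g ∈ S))

omit [Group G] in
open Classical in
theorem coeff_restr (S : Set G) (x : MonoidAlgebra K G) (g : G) :
    (restr S x).coeff g = if g ∈ S then x.coeff g else 0 := by
  unfold restr
  rw [MonoidAlgebra.coeff_ofCoeff, Finsupp.filter_apply]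

omit [Group G] in
theorem restr_support (S : Set G) (x : MonoidAlgebra K G) (g : G)
    (hg : g ∈ (restr S x).coeff.support) : g ∈ S := by
  classical
  rw [Finsupp.mem_support_iff, coeff_restr] at hg
  by_contra h
  rw [if_neg h] at hg
  exact hg rfl

theorem restr_mul (H : Subgroup G) (S : Set G) (hS : ∀ h ∈ H, ∀ g : G, h⁻¹ * g ∈ S ↔ g ∈ S)
    (a x : MonoidAlgebra K G) (ha : ∀ g ∈ a.coeff.support, g ∈ H) :
    restr S (a * x) = a * restr S x := by
  classical
  apply MonoidAlgebra.ext
  apply Finsupp.ext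
  intro g
  rw [coeff_restr, MonoidAlgebra.coeff_mul_apply_left, MonoidAlgebra.coeff_mul_apply_left]
  by_cases hg : g ∈ S
  · rw [if_pos hg]
    apply Finsupp.sum_congr
    intro h hh
    show a.coeff h * x.coeff (h⁻¹ * g) = a.coeff h * (restr S x).coeff (h⁻¹ * g)
    rw [coeff_restr, if_pos ((hS h (ha h hh) g).mpr hg)]
  · rw [if_neg hg]
    symm
    apply Finset.sum_eq_zero
    intro h hh
    show a.coeff h * (restr S x).coeff (h⁻¹ * g) = 0
    rw [coeff_restr, if_neg (fun hc => hg ((hS h (ha h hh) g).mp hc)), mul_zero]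

theorem restr_one (S : Set G) (h1 : (1 : G) ∈ S) : restr S (1 : MonoidAlgebra K G) = 1 := by
  classical
  apply MonoidAlgebra.ext
  apply Finsupp.ext
  intro g
  rw [coeff_restr]
  by_cases hg : g ∈ S
  · rw [if_pos hg]
  · rw [if_neg hg, MonoidAlgebra.one_def, MonoidAlgebra.coeff_single, Finsupp.single_apply,
      if_neg]
    rintro rfl
    exact hg h1

theorem restr_zero (S : Set G) : restr S (0 : MonoidAlgebra K G) = 0 := by
  classical
  apply MonoidAlgebra.ext
  apply Finsupp.ext
  intro g
  rw [coeff_restr]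
  simp

theorem mul_comm_of_support (a e : MonoidAlgebra K G)
    (hc : ∀ g ∈ a.coeff.support, ∀ h ∈ e.coeff.support, g * h = h * g) : a * e = e * a := by
  rw [MonoidAlgebra.mul_def, MonoidAlgebra.mul_def, Finsupp.sum_comm]
  apply Finsupp.sum_congr
  intro h hh
  apply Finsupp.sum_congr
  intro g hg
  rw [hc g hg h hh, mul_comm]

/-- One-sided inverses of elements supported in a commutative subgroup are two-sided. -/
theorem mul_eq_one_comm_of_subgroup (H : Subgroup G) (hH : ∀ x ∈ H, ∀ y ∈ H, x * y = y * x)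
    (a b : MonoidAlgebra K G) (ha : ∀ g ∈ a.coeff.support, g ∈ H) (hab : a * b = 1) :
    b * a = 1 := by
  have h1 : a * restr (H : Set G) b = 1 := by
    rw [← restr_mul H (H : Set G) (fun h hh g => H.mul_mem_cancel_left (H.inv_mem hh)) a b ha,
      hab, restr_one _ H.one_mem]
  have h2 : restr (H : Set G) b * a = 1 := by
    rw [← mul_comm_of_support a _
      (fun g hg h hh => hH g (ha g hg) h (restr_support _ _ h hh)), h1]
  have h3 : restr (H : Set G) b = b := by
    calc restr (H : Set G) b = restr (H : Set G) b * (a * b) := by rw [hab, mul_one]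
      _ = (restr (H : Set G) b * a) * b := (mul_assoc _ _ _).symm
      _ = b := by rw [h2, one_mul]
  rw [h3] at h2
  exact h2

/-- The subgroup generated by the quotients `g₀⁻¹ * g`, `g` in the support of `a`. -/
def quotSubgroup (g₀ : G) (a : MonoidAlgebra K G) : Subgroup G :=
  Subgroup.closure {x : G | ∃ g ∈ a.coeff.support, x = g₀⁻¹ * g}

theorem quotSubgroup_comm (g₀ : G) (a : MonoidAlgebra K G) (hg₀ : g₀ ∈ a.coeff.support)
    (hc : ∀ g₁ ∈ a.coeff.support, ∀ g₂ ∈ a.coeff.support, ∀ g₃ ∈ a.coeff.support,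
      ∀ g₄ ∈ a.coeff.support, (g₁⁻¹ * g₂) * (g₃⁻¹ * g₄) = (g₃⁻¹ * g₄) * (g₁⁻¹ * g₂)) :
    ∀ x ∈ quotSubgroup g₀ a, ∀ y ∈ quotSubgroup g₀ a, x * y = y * x := by
  have hcomm : ∀ x ∈ {x : G | ∃ g ∈ a.coeff.support, x = g₀⁻¹ * g},
      ∀ y ∈ {x : G | ∃ g ∈ a.coeff.support, x = g₀⁻¹ * g}, x * y = y * x := by
    rintro x ⟨g, hg, rfl⟩ y ⟨g', hg', rfl⟩
    exact hc g₀ hg₀ g hg g₀ hg₀ g' hg'
  have hI : IsMulCommutative (quotSubgroup g₀ a) := Subgroup.isMulCommutative_closure hcomm
  intro x hx y hy
  exact setLike_mul_comm hx hy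

theorem shift_support (g₀ : G) (a : MonoidAlgebra K G) :
    ∀ g ∈ (MonoidAlgebra.single g₀⁻¹ (1 : K) * a).coeff.support, g ∈ quotSubgroup g₀ a := by
  intro g hg
  rw [Finsupp.mem_support_iff, MonoidAlgebra.coeff_single_mul_apply, one_mul, inv_inv] at hg
  apply Subgroup.subset_closure
  refine ⟨g₀ * g, Finsupp.mem_support_iff.mpr hg, ?_⟩
  rw [inv_mul_cancel_left]

end Vale.Agent.Lib.P194.H7
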